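import Crest.Agent.R163.Q3.D.L10.S0
import Crest.Agent.R163.Q3.D.L10.H

set_option autoImplicit false
set_option maxRecDepth 100000
set_option linter.all false
set_option Elab.async false

namespace Crest.Agent.R163.L10

theorem p0_9_2 : Ok2 par f9 (((Box3.unit.r 0).l 1).l 0) (selB2 0 (selB2 0 C0 3410737845919285247) 4) :=
  Ok2.run hw hf9 ⟨323,19,19,10,12⟩ 58
    (.chk false 1229)
    (by decide +kernel)

theorem p0_9_3 : Ok2 par f9 ((Box3.unit.r 0).l 1) (selB2 1 (selB2 0 C0 3410737845919285247) 4) :=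
  Ok2.run hw hf9 ⟨310,19,19,10,12⟩ 58
    (.chk false 307)
    (by decide +kernel)

theorem p0_9_4 : Ok2 par f9 ((Box3.unit.r 0).r 1) (selB2 0 C0 3410737845919285247) :=
  Ok2.run hw hf9 ⟨310,19,19,10,12⟩ 58
    (.chk false 1229)
    (by decide +kernel)

theorem p0_9_5 : Ok2 par f9 (Box3.unit.l 0) (selB2 0 C0 3410737845919285247) :=
  Ok2.run hw hf9 ⟨282,19,19,10,12⟩ 58
    (.chk false 1229)
    (by decide +kernel)

theorem p0_9_6 : Ok2 par f9 Box3.unit (selB2 1 C0 3410737845919285247) :=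
  Ok2.run hw hf9 ⟨253,19,19,10,12⟩ 58
    (.chk false 1229)
    (by decide +kernel)

theorem p0_10_0 : Ok2 par f10 Box3.unit C0 :=
  Ok2.run hw hf10 ⟨253,19,19,10,12⟩ 58
    (.chk false 1229)
    (by decide +kernel)

theorem p0_11_0 : Ok2 par f11 Box3.unit (selB2 1 C0 19599665578271662079) :=
  Ok2.run hw hf11 ⟨254,19,19,7,12⟩ 58
    (.chk false 614)
    (by decide +kernel)

theorem p0_11_1 : Ok2 par f11 Box3.unit (selB2 0 C0 19599665578271662079) :=
  Ok2.run hw hf11 ⟨303,25,25,7,13⟩ 58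
    (.chk true 0)
    (by decide +kernel)

theorem p0_12_0 : Ok2 par f12 (Box3.unit.l 0) (selB2 1 (selB2 0 (selB2 0 (selB2 0 C0 11733805916159) 9319710719) 64) 39) :=
  Ok2.run hw hf12 ⟨361,25,25,13,13⟩ 58
    (.chk true 0)
    (by decide +kernel)

theorem p0_12_1 : Ok2 par f12 (Box3.unit.l 0) (selB2 0 (selB2 0 (selB2 0 (selB2 0 C0 11733805916159) 9319710719) 64) 39) :=
  Ok2.run hw hf12 ⟨423,25,25,13,13⟩ 58
    (.split 1 (.chk true 0) (.split 0 (.chk true 0) (.chk true 0)))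
    (by decide +kernel)

theorem p0_12_2 : Ok2 par f12 (Box3.unit.l 0) (selB2 1 (selB2 0 (selB2 0 C0 11733805916159) 9319710719) 64) :=
  Ok2.run hw hf12 ⟨306,19,19,13,13⟩ 58
    (.chk false 0)
    (by decide +kernel)

theorem p0_12_3 : Ok2 par f12 (Box3.unit.r 0) (selB2 1 (selB2 0 (selB2 0 (selB2 0 C0 11733805916159) 9319710719) 64) 35) :=
  Ok2.run hw hf12 ⟨361,25,25,13,13⟩ 58
    (.chk true 0)
    (by decide +kernel)

theorem p0_12_4 : Ok2 par f12 (Box3.unit.r 0) (selB2 0 (selB2 0 (selB2 0 (selB2 0 C0 11733805916159) 9319710719) 64) 35) :=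
  Ok2.run hw hf12 ⟨424,25,25,13,13⟩ 58
    (.split 1 (.chk true 0) (.part 6 (.chk true 0) (.split 0 (.chk true 0) (.chk true 0))))
    (by decide +kernel)

theorem p0_12_5 : Ok2 par f12 (Box3.unit.r 0) (selB2 1 (selB2 0 (selB2 0 C0 11733805916159) 9319710719) 64) :=
  Ok2.run hw hf12 ⟨306,19,19,13,13⟩ 58
    (.chk false 0)
    (by decide +kernel)

theorem p0_12_6 : Ok2 par f12 Box3.unit (selB2 1 (selB2 0 C0 11733805916159) 9319710719) :=
  Ok2.run hw hf12 ⟨327,25,25,13,13⟩ 58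
    (.chk true 0)
    (by decide +kernel)

theorem p0_12_7 : Ok2 par f12 Box3.unit (selB2 1 C0 11733805916159) :=
  Ok2.run hw hf12 ⟨277,19,19,13,13⟩ 58
    (.chk false 0)
    (by decide +kernel)


end Crest.Agent.R163.L10
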