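import Crest.Agent.R163.Q3.D.L10.P0_0
import Crest.Agent.R163.Q3.D.L10.P0_1

set_option autoImplicit false
set_option maxRecDepth 100000
set_option linter.all false
set_option Elab.async false

namespace Crest.Agent.R163.L10

theorem o0_12 : Ok2 par f12 Box3.unit C0 :=
  (Ok2.part 11733805916159 p0_12_7 (Ok2.part 9319710719 p0_12_6 (Ok2.split 0 (Ok2.part 64 p0_12_2 (Ok2.part 39 p0_12_0 p0_12_1)) (Ok2.part 64 p0_12_5 (Ok2.part 35 p0_12_3 p0_12_4)))))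
theorem o0_11 : Ok2 par f11 Box3.unit C0 :=
  (Ok2.part 19599665578271662079 p0_11_0 p0_11_1)
theorem o0_10 : Ok2 par f10 Box3.unit C0 :=
  p0_10_0
theorem o0_9 : Ok2 par f9 Box3.unit C0 :=
  (Ok2.part 3410737845919285247 p0_9_6 (Ok2.split 0 p0_9_5 (Ok2.split 1 (Ok2.part 4 p0_9_3 (Ok2.split 0 p0_9_2 (Ok2.split 1 p0_9_0 p0_9_1))) p0_9_4)))
theorem o0_8 : Ok2 par f8 Box3.unit C0 :=
  p0_8_0
theorem o0_7 : Ok2 par f7 Box3.unit C0 :=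
  p0_7_0
theorem o0_6 : Ok2 par f6 Box3.unit C0 :=
  (Ok2.part 51929506109014933503 p0_6_20 (Ok2.split 1 (Ok2.part 2096129 p0_6_10 (Ok2.split 0 p0_6_9 (Ok2.part 7 p0_6_8 (Ok2.split 1 (Ok2.part 47 p0_6_6 (Ok2.split 1 p0_6_5 (Ok2.split 0 (Ok2.split 1 p0_6_3 (Ok2.split 0 (Ok2.split 1 p0_6_0 p0_6_1) p0_6_2)) p0_6_4))) p0_6_7)))) (Ok2.part 1023 p0_6_19 (Ok2.split 0 p0_6_18 (Ok2.split 1 p0_6_17 (Ok2.part 4 p0_6_16 (Ok2.split 0 p0_6_15 (Ok2.split 1 p0_6_14 (Ok2.part 31 p0_6_13 (Ok2.split 0 p0_6_11 p0_6_12))))))))))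
theorem o0_5 : Ok2 par f5 Box3.unit C0 :=
  p0_5_0
theorem o0_4 : Ok2 par f4 Box3.unit C0 :=
  p0_4_0
theorem o0_3 : Ok2 par f3 Box3.unit C0 :=
  (Ok2.part 8589934591 p0_3_0 p0_3_1)
theorem o0_2 : Ok2 par f2 Box3.unit C0 :=
  p0_2_0
theorem o0_1 : Ok2 par f1 Box3.unit C0 :=
  (Ok2.part 8589934591 p0_1_0 p0_1_1)
theorem o0_0 : Ok2 par f0 Box3.unit C0 :=
  p0_0_0

theorem pt0 : PtAll2 par C0 :=
  PtAll2.of_okD hw (OkD2.cover [f0.dom,f1.dom,f2.dom,f3.dom,f4.dom,f5.dom,f6.dom,f7.dom,f8.dom,f9.dom,f10.dom,f11.dom,f12.dom]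
    (.split 0 (.split 0 (.leaf 0) (.split 1 (.split 0 (.leaf 1) (.leaf 2)) (.split 0 (.leaf 3) (.leaf 4)))) (.split 1 (.split 0 (.leaf 5) (.leaf 6)) (.split 0 (.split 1 (.leaf 7) (.leaf 8)) (.split 1 (.leaf 9) (.split 0 (.leaf 10) (.split 1 (.leaf 11) (.leaf 12)))))))
    (by decide +kernel)
    (List.forall_mem_cons.2 ⟨OkD2.of_ok o0_0, (List.forall_mem_cons.2 ⟨OkD2.of_ok o0_1, (List.forall_mem_cons.2 ⟨OkD2.of_ok o0_2, (List.forall_mem_cons.2 ⟨OkD2.of_ok o0_3, (List.forall_mem_cons.2 ⟨OkD2.of_ok o0_4, (List.forall_mem_cons.2 ⟨OkD2.of_ok o0_5, (List.forall_mem_cons.2 ⟨OkD2.of_ok o0_6, (List.forall_mem_cons.2 ⟨OkD2.of_ok o0_7, (List.forall_mem_cons.2 ⟨OkD2.of_ok o0_8, (List.forall_mem_cons.2 ⟨OkD2.of_ok o0_9, (List.forall_mem_cons.2 ⟨OkD2.of_ok o0_10, (List.forall_mem_cons.2 ⟨OkD2.of_ok o0_11, (List.forall_mem_cons.2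 ⟨OkD2.of_ok o0_12, (fun _ h => nomatch h)⟩)⟩)⟩)⟩)⟩)⟩)⟩)⟩)⟩)⟩)⟩)⟩)⟩))

end Crest.Agent.R163.L10
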