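import Crest.Agent.R163.Q3.D.L10.S0
import Crest.Agent.R163.Q3.D.L10.H

set_option autoImplicit false
set_option maxRecDepth 100000
set_option linter.all false
set_option Elab.async false

namespace Crest.Agent.R163.L10

theorem p0_0_0 : Ok2 par f0 Box3.unit C0 :=
  Ok2.run hw hf0 ⟨255,19,19,13,13⟩ 58
    (.chk false 1229)
    (by decide +kernel)

theorem p0_1_0 : Ok2 par f1 Box3.unit (selB2 1 C0 8589934591) :=
  Ok2.run hw hf1 ⟨258,19,19,16,13⟩ 58
    (.chk false 1229)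
    (by decide +kernel)

theorem p0_1_1 : Ok2 par f1 Box3.unit (selB2 0 C0 8589934591) :=
  Ok2.run hw hf1 ⟨258,19,19,16,13⟩ 58
    (.chk false 1229)
    (by decide +kernel)

theorem p0_2_0 : Ok2 par f2 Box3.unit C0 :=
  Ok2.run hw hf2 ⟨255,19,19,13,13⟩ 58
    (.chk false 1229)
    (by decide +kernel)

theorem p0_3_0 : Ok2 par f3 Box3.unit (selB2 1 C0 8589934591) :=
  Ok2.run hw hf3 ⟨258,19,19,16,13⟩ 58
    (.chk false 1229)
    (by decide +kernel)

theorem p0_3_1 : Ok2 par f3 Box3.unit (selB2 0 C0 8589934591) :=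
  Ok2.run hw hf3 ⟨258,19,19,16,13⟩ 58
    (.chk false 1229)
    (by decide +kernel)

theorem p0_4_0 : Ok2 par f4 Box3.unit C0 :=
  Ok2.run hw hf4 ⟨255,19,19,13,13⟩ 58
    (.chk false 1229)
    (by decide +kernel)

theorem p0_5_0 : Ok2 par f5 Box3.unit C0 :=
  Ok2.run hw hf5 ⟨255,19,19,13,13⟩ 58
    (.chk false 1229)
    (by decide +kernel)

theorem p0_6_0 : Ok2 par f6 ((((((((Box3.unit.l 1).r 0).l 1).r 1).l 0).r 1).l 0).l 1) (selB2 0 (selB2 0 (selB2 0 (selB2 0 C0 51929506109014933503) 2096129) 7) 47) :=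
  Ok2.run hw hf6 ⟨509,19,19,10,12⟩ 58
    (.split 0 (.chk false 614) (.split 2 (.chk false 614) (.split 1 (.chk false 614) (.split 0 (.chk false 614) (.split 2 (.chk false 614) (.split 1 (.chk false 614) (.chk false 614)))))))
    (by decide +kernel)

theorem p0_6_1 : Ok2 par f6 ((((((((Box3.unit.l 1).r 0).l 1).r 1).l 0).r 1).l 0).r 1) (selB2 0 (selB2 0 (selB2 0 (selB2 0 C0 51929506109014933503) 2096129) 7) 47) :=
  Ok2.run hw hf6 ⟨480,19,19,10,12⟩ 58
    (.split 0 (.chk false 614) (.split 2 (.chk false 614) (.split 1 (.split 0 (.chk false 614) (.chk false 614)) (.chk false 614))))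
    (by decide +kernel)

theorem p0_6_2 : Ok2 par f6 (((((((Box3.unit.l 1).r 0).l 1).r 1).l 0).r 1).r 0) (selB2 0 (selB2 0 (selB2 0 (selB2 0 C0 51929506109014933503) 2096129) 7) 47) :=
  Ok2.run hw hf6 ⟨399,19,19,10,12⟩ 58
    (.chk false 614)
    (by decide +kernel)

theorem p0_6_3 : Ok2 par f6 ((((((Box3.unit.l 1).r 0).l 1).r 1).l 0).l 1) (selB2 0 (selB2 0 (selB2 0 (selB2 0 C0 51929506109014933503) 2096129) 7) 47) :=
  Ok2.run hw hf6 ⟨381,19,19,10,12⟩ 58
    (.chk false 614)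
    (by decide +kernel)

theorem p0_6_4 : Ok2 par f6 (((((Box3.unit.l 1).r 0).l 1).r 1).r 0) (selB2 0 (selB2 0 (selB2 0 (selB2 0 C0 51929506109014933503) 2096129) 7) 47) :=
  Ok2.run hw hf6 ⟨370,19,19,10,12⟩ 58
    (.chk false 614)
    (by decide +kernel)

theorem p0_6_5 : Ok2 par f6 ((((Box3.unit.l 1).r 0).l 1).l 1) (selB2 0 (selB2 0 (selB2 0 (selB2 0 C0 51929506109014933503) 2096129) 7) 47) :=
  Ok2.run hw hf6 ⟨352,19,19,10,12⟩ 58
    (.chk false 614)
    (by decide +kernel)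

theorem p0_6_6 : Ok2 par f6 (((Box3.unit.l 1).r 0).l 1) (selB2 1 (selB2 0 (selB2 0 (selB2 0 C0 51929506109014933503) 2096129) 7) 47) :=
  Ok2.run hw hf6 ⟨332,19,19,10,12⟩ 58
    (.chk false 614)
    (by decide +kernel)

theorem p0_6_7 : Ok2 par f6 (((Box3.unit.l 1).r 0).r 1) (selB2 0 (selB2 0 (selB2 0 C0 51929506109014933503) 2096129) 7) :=
  Ok2.run hw hf6 ⟨380,19,19,10,12⟩ 58
    (.part 48 (.chk false 614) (.split 1 (.chk false 614) (.part 3 (.chk false 614) (.split 0 (.part 1 (.chk false 614) (.split 1 (.chk false 614) (.chk false 614))) (.part 1 (.chk false 614) (.split 1 (.chk false 614) (.chk false 614)))))))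
    (by decide +kernel)

theorem p0_6_8 : Ok2 par f6 ((Box3.unit.l 1).r 0) (selB2 1 (selB2 0 (selB2 0 C0 51929506109014933503) 2096129) 7) :=
  Ok2.run hw hf6 ⟨310,19,19,10,12⟩ 58
    (.chk false 1229)
    (by decide +kernel)

theorem p0_6_9 : Ok2 par f6 ((Box3.unit.l 1).l 0) (selB2 0 (selB2 0 C0 51929506109014933503) 2096129) :=
  Ok2.run hw hf6 ⟨332,19,19,10,12⟩ 58
    (.part 47 (.chk false 1229) (.split 1 (.chk false 614) (.chk false 614)))
    (by decide +kernel)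

theorem p0_6_10 : Ok2 par f6 (Box3.unit.l 1) (selB2 1 (selB2 0 C0 51929506109014933503) 2096129) :=
  Ok2.run hw hf6 ⟨282,19,19,10,12⟩ 58
    (.chk false 1229)
    (by decide +kernel)

theorem p0_6_11 : Ok2 par f6 ((((((Box3.unit.r 1).r 0).r 1).r 0).r 1).l 0) (selB2 0 (selB2 0 (selB2 0 (selB2 0 C0 51929506109014933503) 1023) 4) 31) :=
  Ok2.run hw hf6 ⟨390,19,19,10,12⟩ 58
    (.chk false 1229)
    (by decide +kernel)

theorem p0_6_12 : Ok2 par f6 ((((((Box3.unit.r 1).r 0).r 1).r 0).r 1).r 0) (selB2 0 (selB2 0 (selB2 0 (selB2 0 C0 51929506109014933503) 1023) 4) 31) :=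
  Ok2.run hw hf6 ⟨450,19,19,10,12⟩ 58
    (.split 1 (.part 29 (.chk false 1229) (.split 0 (.chk false 307) (.split 1 (.chk false 307) (.chk false 307)))) (.part 15 (.chk false 1229) (.split 0 (.chk false 0) (.split 1 (.chk false 0) (.chk false 0)))))
    (by decide +kernel)

theorem p0_6_13 : Ok2 par f6 (((((Box3.unit.r 1).r 0).r 1).r 0).r 1) (selB2 1 (selB2 0 (selB2 0 (selB2 0 C0 51929506109014933503) 1023) 4) 31) :=
  Ok2.run hw hf6 ⟨374,19,19,10,12⟩ 58
    (.chk false 307)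
    (by decide +kernel)

theorem p0_6_14 : Ok2 par f6 (((((Box3.unit.r 1).r 0).r 1).r 0).l 1) (selB2 0 (selB2 0 (selB2 0 C0 51929506109014933503) 1023) 4) :=
  Ok2.run hw hf6 ⟨409,19,19,10,12⟩ 58
    (.part 1005 (.chk false 1229) (.split 0 (.chk false 307) (.split 1 (.chk false 307) (.chk false 307))))
    (by decide +kernel)

theorem p0_6_15 : Ok2 par f6 ((((Box3.unit.r 1).r 0).r 1).l 0) (selB2 0 (selB2 0 (selB2 0 C0 51929506109014933503) 1023) 4) :=
  Ok2.run hw hf6 ⟨345,19,19,10,12⟩ 58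
    (.chk false 1229)
    (by decide +kernel)

theorem p0_6_16 : Ok2 par f6 (((Box3.unit.r 1).r 0).r 1) (selB2 1 (selB2 0 (selB2 0 C0 51929506109014933503) 1023) 4) :=
  Ok2.run hw hf6 ⟨332,19,19,10,12⟩ 58
    (.chk false 307)
    (by decide +kernel)

theorem p0_6_17 : Ok2 par f6 (((Box3.unit.r 1).r 0).l 1) (selB2 0 (selB2 0 C0 51929506109014933503) 1023) :=
  Ok2.run hw hf6 ⟨385,19,19,10,12⟩ 58
    (.part 2007 (.chk false 1229) (.split 0 (.chk false 307) (.split 1 (.chk false 307) (.part 2 (.chk false 307) (.split 1 (.chk false 307) (.chk false 307))))))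
    (by decide +kernel)

theorem p0_6_18 : Ok2 par f6 ((Box3.unit.r 1).l 0) (selB2 0 (selB2 0 C0 51929506109014933503) 1023) :=
  Ok2.run hw hf6 ⟨310,19,19,10,12⟩ 58
    (.chk false 1229)
    (by decide +kernel)

theorem p0_6_19 : Ok2 par f6 (Box3.unit.r 1) (selB2 1 (selB2 0 C0 51929506109014933503) 1023) :=
  Ok2.run hw hf6 ⟨282,19,19,10,12⟩ 58
    (.chk false 1229)
    (by decide +kernel)

theorem p0_6_20 : Ok2 par f6 Box3.unit (selB2 1 C0 51929506109014933503) :=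
  Ok2.run hw hf6 ⟨253,19,19,10,12⟩ 58
    (.chk false 1229)
    (by decide +kernel)

theorem p0_7_0 : Ok2 par f7 Box3.unit C0 :=
  Ok2.run hw hf7 ⟨255,19,19,13,13⟩ 58
    (.chk false 1229)
    (by decide +kernel)

theorem p0_8_0 : Ok2 par f8 Box3.unit C0 :=
  Ok2.run hw hf8 ⟨252,19,19,10,12⟩ 58
    (.chk false 1229)
    (by decide +kernel)

theorem p0_9_0 : Ok2 par f9 ((((Box3.unit.r 0).l 1).r 0).l 1) (selB2 0 (selB2 0 C0 3410737845919285247) 4) :=
  Ok2.run hw hf9 ⟨432,19,19,10,12⟩ 58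
    (.part 877 (.chk false 1229) (.split 0 (.chk false 1229) (.part 2 (.chk false 307) (.split 1 (.part 1 (.chk false 307) (.split 0 (.chk false 1229) (.split 1 (.chk false 1229) (.chk false 1229)))) (.chk false 1229)))))
    (by decide +kernel)

theorem p0_9_1 : Ok2 par f9 ((((Box3.unit.r 0).l 1).r 0).r 1) (selB2 0 (selB2 0 C0 3410737845919285247) 4) :=
  Ok2.run hw hf9 ⟨405,19,19,10,12⟩ 58
    (.part 959 (.chk false 1229) (.split 0 (.chk false 1229) (.split 0 (.chk false 1229) (.split 1 (.chk false 1229) (.chk false 1229)))))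
    (by decide +kernel)


end Crest.Agent.R163.L10
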